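import Vale.Agent.P159.TM.Spec.C
import Vale.Agent.P159.H170.Final
import Vale.Agent.P159.H873.Mono

/-!
FRAME (helper367): the top of T1 over an abstract one-scale predicate `Q C₂ W b N ξ y a`
(constant `C₂` and window `W` of (H2), torus of side `N`, mass `1/ξ²`, activity bound `y`, slope
bound `a`).
-/

open Real

namespace Vale.Agent.P159.TM.Frame

open Vale.Agent.P159.TM.H859
open Vale.Agent.P159.TM.SpecC (Kn)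

theorem one_le_Kn (k : ℕ) (y : ℝ) : 1 ≤ Kn k y := Nat.le_add_left _ _

theorem le_Kn (k : ℕ) (y : ℝ) : k * Real.log (1 / y) ≤ (Kn k y : ℝ) := by
  unfold SpecC.Kn
  push_cast
  linarith [Nat.le_ceil ((k : ℝ) * Real.log (1 / y))]

theorem Kn_le {k : ℕ} {y : ℝ} (hy : 0 < y) (hy1 : y ≤ 1) :
    (Kn k y : ℝ) ≤ k * Real.log (1 / y) + 2 := by
  unfold SpecC.Kn
  push_cast
  have h0 : 0 ≤ Real.log (1 / y) := Real.log_nonneg (by rw [le_div_iff₀ hy]; linarith)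
  linarith [(Nat.ceil_lt_add_one (mul_nonneg (Nat.cast_nonneg k) h0)).le]

theorem Kn_mono {k : ℕ} {y y' : ℝ} (hy' : 0 < y') (h : y' ≤ y) : Kn k y ≤ Kn k y' := by
  unfold SpecC.Kn
  have hlog : Real.log (1 / y) ≤ Real.log (1 / y') :=
    Real.log_le_log (by have : 0 < y := lt_of_lt_of_le hy' h; positivity)
      (one_div_le_one_div_of_le hy' h)
  exact Nat.add_le_add_right (Nat.ceil_mono (mul_le_mul_of_nonneg_left hlog (Nat.cast_nonneg k))) 1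

section

-- arguments of `Q`: the constant `C₂` and the window `W` of (H2), `b`, side `N`, `ξ`, activity
-- bound `y`, slope bound `a`
variable (Q : ℝ → ℝ → ℝ → ℕ → ℕ → ℝ → ℝ → Prop)

/-- monotone in `C₂`, the activity and the slope -/
def MonoQ : Prop := ∀ (C2 C2' W b : ℝ) (N xi : ℕ) (y a y' a' : ℝ), 0 < C2 → C2 ≤ C2' →
  y ≤ y' → a ≤ a' → Q C2 W b N xi y a → Q C2' W b N xi y' a'

/-- (I): the initial condition at the critical point -/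
def InitQ : Prop := 2 / π < helicity bCrit → ∃ δ : ℝ, 0 < δ ∧
  ∀ W y0 : ℝ, 0 < y0 → ∀ K0 X0 : ℕ,
    ∃ K xi : ℕ, K0 ≤ K ∧ X0 ≤ xi ∧ Q 5 W bCrit (K * xi) xi y0 (π / 2 - δ)

/-- continuity in `b` -/
def ContQ : Prop := ∀ C2 C2' W b0 : ℝ, 0 < C2 → C2 < C2' → 0 < b0 →
  ∀ (N xi : ℕ) (y a y' a' : ℝ), 1 ≤ xi → xi ≤ N → y < y' → a < a' → Q C2 W b0 N xi y a →
    ∃ η : ℝ, 0 < η ∧ ∀ b : ℝ, |b - b0| < η → Q C2' W b N xi y' a'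

/-- first volume transfer: from an arbitrarily large torus to side `K ξ`, `K ~ y^(-1/2)` -/
def Trans0Q (b1 b2 A : ℝ) : Prop := ∃ W0 : ℝ, ∀ W : ℝ, W0 ≤ W →
  ∃ (C ys : ℝ) (X : ℕ), 1 ≤ C ∧ 0 < ys ∧
  ∀ b : ℝ, b1 ≤ b → b ≤ b2 → ∀ (N N' n K xi : ℕ) (y a : ℝ), X ≤ xi → K ≤ n → N = n * xi →
    N' = K * xi → 0 < y → y ≤ ys → 1 / √y ≤ (K : ℝ) → (K : ℝ) ≤ 2 / √y → a ≤ A →
    Q 6 W b N xi y a → Q 7 W b N' xi (C * y) (a + C * √y)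

/-- volume transfer at a fixed mass, from side `n ξ` to side `n' ξ` -/
def TransQ (b1 b2 A : ℝ) : Prop := ∃ W0 : ℝ, ∀ W : ℝ, W0 ≤ W →
  ∃ (c C ys : ℝ) (X : ℕ), 0 < c ∧ 0 ≤ C ∧ 0 < ys ∧
  ∀ b : ℝ, b1 ≤ b → b ≤ b2 → ∀ (N N' n n' K xi : ℕ) (y a : ℝ), X ≤ xi → X ≤ K → K ≤ n →
    K ≤ n' → N = n * xi → N' = n' * xi → 0 < y → y ≤ ys → K * y ≤ c →
    C * exp (-(c * K)) ≤ y → (n : ℝ) ≤ (1 / y) ^ 4 → (n : ℝ) ≤ exp (c * K) → (n' : ℝ) ≤ (1 / y) ^ 4 → a ≤ A → Q 7 W b N xi y a →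
    Q 10 W b N' xi (y + C * exp (-(c * K)))
      (a + C * (√(y + C * exp (-(c * K))) + 1 / (K : ℝ) ^ 2))

/-- the RG step on one torus -/
def StepQ (b1 b2 δ : ℝ) : Prop := ∃ W0 : ℝ, ∀ W : ℝ, W0 ≤ W → ∃ k0 : ℕ, ∀ k : ℕ, k0 ≤ k →
  ∃ (p : ℕ) (C ys : ℝ) (X : ℕ), 0 ≤ C ∧ 0 < ys ∧
  ∀ b : ℝ, b1 ≤ b → b ≤ b2 → ∀ (N xi : ℕ) (y a : ℝ), X ≤ xi → 0 < y → y ≤ ys →
    a ≤ π / 2 - δ → N = Kn k y * Mn p y * xi → Q 10 W b N xi y a →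
    Q 5 W b N (Mn p y * xi) (y / 4)
      (a + C * ((Mn p y : ℝ) * √y + 1 / Real.log (1 / y) ^ 2))

/-- below the critical point the one-scale predicate fails at small mass -/
def GlueQ : Prop := ∀ C2 W b : ℝ, 0 < b → b < bCrit → ∀ A : ℝ, ∃ X : ℕ,
  ∀ (N n xi : ℕ) (y a : ℝ), X ≤ xi → X ≤ n → N = n * xi → y ≤ 1 / ((X : ℝ) + 1) → a ≤ A →
    ¬ Q C2 W b N xi y a

end

end Vale.Agent.P159.TM.Frame
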