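import Vale.Agent.P159.TM.H285.Circ
import Vale.Agent.P159.TM.H285.Up2
import Vale.Agent.P159.TM.H146.Num
import Vale.Agent.P159.TM.H77.Win

/-!
FRAME (helper367): the arms of the torus law (row R6), from 77's numbers, 146's two copies and
285's lift.
-/

open Finset

namespace Vale.Agent.P159.TM.Frame

open Vale.Agent.P159.TM.H504 (Bx)
open Vale.Agent.P159.TM.H77 (pt pt_inj)

theorem armTor {b1 b2 a : ℝ} (hb1 : 0 < b1) : H285.ArmTorW b1 b2 a := by
  classical
  obtain ⟨K4, C1, hK4, hC1, hw⟩ := H77.win (C2 := 10) (bb := max b1 b2) (by norm_num)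
    (lt_max_of_lt_left hb1)
  obtain ⟨A1, hA1, hw⟩ := hw (2 * C1)
  refine ⟨1 / (32 * K4), by positivity, A1, fun A hA => ⟨A, fun W hW => ⟨1, 6, one_pos, ?_⟩⟩⟩
  intro N _ b hb ξ hξ y hr t ht h1 h2
  obtain ⟨n, rfl⟩ := Int.eq_ofNat_of_zero_le (show 0 ≤ t by omega)
  have hn : 1 ≤ n := by exact_mod_cast ht
  have h1' : ξ / A ≤ 200 * n := by exact_mod_cast h1
  have h2' : n ≤ ξ / A := by exact_mod_cast h2
  have hA0 : 0 < A := by omega
  have hAn : A * n ≤ ξ := (Nat.mul_le_mul_left A h2').trans (Nat.mul_div_le ξ A)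
  have hξn : ξ ≤ 10001 * A * n := by
    have h3 : ξ < A * (ξ / A + 1) := Nat.lt_mul_div_succ ξ hA0
    have h4 : A * (ξ / A + 1) ≤ A * (200 * n + n) := Nat.mul_le_mul_left _ (by omega)
    nlinarith
  obtain ⟨K, hK⟩ := hr.hd
  have hN0 : 0 < N := NeZero.pos N
  have hK1 : 1 ≤ K := by
    rcases Nat.eq_zero_or_pos K with h | h
    · rw [h, mul_zero] at hK; omega
    · exact h
  have hnξ : n ≤ ξ := (Nat.le_mul_of_pos_left n hA0).trans hAn
  have hN6 : 6 * n ≤ N := (Nat.mul_le_mul_left 6 hnξ).trans hr.hK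
  have hd : Disjoint ((Bx 0 0 n).image (pt N)) ((Bx (0 + 3 * n) 0 n).image (pt N)) := by
    rw [Finset.disjoint_left]
    intro z hz hz'
    rw [mem_image] at hz hz'
    obtain ⟨u, hu, rfl⟩ := hz
    obtain ⟨v, hv, hvu⟩ := hz'
    have hu' : u ∈ Bx 0 0 (4 * n) := by
      unfold Bx at *
      rw [mem_product, mem_Ico, mem_Ico] at *
      push_cast
      omega
    have hv' : v ∈ Bx 0 0 (4 * n) := by
      unfold Bx at *
      rw [mem_product, mem_Ico, mem_Ico] at *
      push_cast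
      omega
    have := pt_inj (show 4 * n ≤ N by omega) hv' hu' hvu
    subst this
    unfold Bx at *
    rw [mem_product, mem_Ico, mem_Ico] at *
    omega
  obtain ⟨V, hV0, hV, s0, s2, s4, sI, m2, m4, mI⟩ := hw A hA N b hb.le
    (hr.hb2.trans (le_max_right _ _)) ξ K n W hW hn hAn hξn hK1 (by rw [hK, mul_comm])
    hr.hyp.h2 0 0
  have h5 := H146.arm_num hb.le hn (show n ≤ N by omega) hd hV hK4 hV0 s0 s2 s4 sI m2 m4 mI
  rw [zero_add] at h5
  exact H285.arm_le hb hξ hn hN6 (by positivity) h5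

end Vale.Agent.P159.TM.Frame
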