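import Vale.Agent.P159.TM.Frame.Top

/-!
FRAME (helper367): the final assembly over the abstract one-scale predicate.
-/

open Real Filter Topology

namespace Vale.Agent.P159.TM.Frame

open Vale.Agent.P159.TM.H859
open Vale.Agent.P159.TM.SpecC (Kn)

variable {Q : ℝ → ℝ → ℝ → ℕ → ℕ → ℝ → ℝ → Prop}

/-- **T1 from its inputs.** -/
theorem helicity_eq (hM : MonoQ Q) (hI : InitQ Q) (hC : ContQ Q)
    (hT0 : ∀ b1 b2 : ℝ, 0 < b1 → b1 ≤ b2 → Trans0Q Q b1 b2 (π / 2))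
    (hT : ∀ b1 b2 : ℝ, 0 < b1 → b1 ≤ b2 → TransQ Q b1 b2 (π / 2))
    (hS : ∀ b1 b2 δ : ℝ, 0 < b1 → b1 ≤ b2 → 0 < δ → StepQ Q b1 b2 δ) (hG : GlueQ Q) :
    helicity bCrit = 2 / π := by
  have hb0 : 0 < bCrit := H170.bCrit_pos
  refine le_antisymm (le_of_not_gt fun hlt => ?_) (H873.hel_crit hb0)
  obtain ⟨δ, hδ, hI⟩ := hI hlt
  set b1 : ℝ := bCrit / 2 with hb1
  have hb1pos : 0 < b1 := by positivity
  have hb12 : b1 ≤ bCrit := by rw [hb1]; linarith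
  obtain ⟨W, k, C, C0, ys, p, X, hk1, hC0, hC01, hys, hys1, hstep, hstart⟩ :=
    full_step hM (show 0 < δ / 8 by positivity) (hT0 b1 bCrit hb1pos hb12)
      (hT b1 bCrit hb1pos hb12) (hS b1 bCrit (δ / 8) hb1pos hb12 (by positivity))
  have hk : (0 : ℝ) < k := by exact_mod_cast hk1
  obtain ⟨y0, hy0, hy01, hrec⟩ := rec_main2 C p hC0 (show 0 < δ / 8 by positivity)
  -- the first activity
  set y1 : ℝ := min ys y0 with hy1def
  have hy1 : 0 < y1 := lt_min hys hy0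
  have hy1ys : y1 ≤ ys := min_le_left _ _
  have hy1y0 : y1 ≤ y0 := min_le_right _ _
  have hy116 : y1 ≤ 1 / 16 := hy1ys.trans hys1
  have hy11 : y1 ≤ 1 := by linarith
  have hC0p : 0 < C0 := by linarith
  set z : ℝ := y1 / (2 * C0) with hz
  have hzpos : 0 < z := by positivity
  obtain ⟨K, xi, hKK, hxi, hQ0⟩ := hI W (z / 2) (by positivity) (max ⌈1 / √z⌉₊ 1) (max X 1)
  have hxiX : X ≤ xi := (le_max_left _ _).trans hxi
  have hxi1 : 1 ≤ xi := (le_max_right _ _).trans hxi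
  have hK1 : 1 ≤ K := (le_max_right _ _).trans hKK
  -- continuity
  obtain ⟨η, hη, hcont⟩ := hC 5 6 W bCrit (by norm_num) (by norm_num) hb0 (K * xi) xi (z / 2)
    (π / 2 - δ) z (π / 2 - δ / 2) hxi1 (Nat.le_mul_of_pos_left _ (by omega))
    (by linarith) (by linarith) hQ0
  set b : ℝ := bCrit - min (η / 2) (bCrit / 2) with hbdef
  have hm : 0 < min (η / 2) (bCrit / 2) := lt_min (by positivity) (by positivity)
  have hbc : b < bCrit := by rw [hbdef]; linarith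
  have hbb1 : b1 ≤ b := by
    have := min_le_right (η / 2) (bCrit / 2)
    rw [hbdef, hb1]; linarith
  have hbη : |b - bCrit| < η := by
    have : b - bCrit = -min (η / 2) (bCrit / 2) := by rw [hbdef]; ring
    rw [this, abs_neg, abs_of_pos hm]
    have := min_le_left (η / 2) (bCrit / 2)
    linarith
  have hbpos : 0 < b := lt_of_lt_of_le hb1pos hbb1
  have hQ1 := hcont b hbη
  -- the first state
  have hst := hstart b hbb1 hbc.le K xi y1 (π / 2 - δ / 2) hxiX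
    ((le_max_left _ _).trans hKK) hQ1 hy1 hy1ys (by linarith)
  have hall := hrec (σ := St X) epsS
    (fun s y a => Q 10 W b (Kn k y * Mn p y * s.1) s.1 y a) ys (π / 2 - δ / 8) epsS_pos
    (fun s y a hg hy hyy ha => hstep b hbb1 hbc.le s y a hg hy hyy ha)
    ⟨xi, hxiX, hxi1⟩ y1 (π / 2 - δ / 2 + δ / 8) hst hy1 hy1ys hy1y0 (by linarith)
  -- contradiction below the critical point
  obtain ⟨XG, hG⟩ := hG 10 W b hbpos hbc (π / 2)
  have hlim : Tendsto (fun j : ℕ => y1 / 2 ^ j) atTop (𝓝[>] 0) := by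
    refine tendsto_nhdsWithin_iff.2 ⟨?_, Eventually.of_forall fun j => ?_⟩
    · have h1 : Tendsto (fun j : ℕ => y1 * (1 / 2 : ℝ) ^ j) atTop (𝓝 (y1 * 0)) :=
        (tendsto_pow_atTop_nhds_zero_of_lt_one (by norm_num) (by norm_num)).const_mul y1
      rw [mul_zero] at h1
      refine h1.congr fun j => ?_
      rw [one_div, inv_pow]
      rfl
    · exact div_pos hy1 (by positivity)
  have e1 : ∀ᶠ j : ℕ in atTop, y1 / 2 ^ j < 1 / ((XG : ℝ) + 1) :=
    (tendsto_nhdsWithin_iff.1 hlim).1.eventually_lt_const (by positivity)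
  have e2 : ∀ᶠ j : ℕ in atTop, (XG : ℝ) / k ≤ Real.log (1 / (y1 / 2 ^ j)) :=
    (tendsto_log_inv.comp hlim).eventually_ge_atTop _
  have e3 : ∀ᶠ j : ℕ in atTop, (XG : ℝ) ≤ (2 : ℝ) ^ j :=
    (tendsto_pow_atTop_atTop_of_one_lt one_lt_two).eventually_ge_atTop _
  obtain ⟨j, h1, h2, h3⟩ := (e1.and (e2.and e3)).exists
  obtain ⟨s, a', hQs, ha1, ha2, heps⟩ := hall j
  have hspos : (0 : ℝ) < (s.1 : ℝ) := by exact_mod_cast s.2.2
  have hxipos : (0 : ℝ) < (xi : ℝ) := by exact_mod_cast hxi1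
  have hxi1' : (1 : ℝ) ≤ (xi : ℝ) := by exact_mod_cast hxi1
  have hsj : (2 : ℝ) ^ j ≤ (s.1 : ℝ) := by
    have h4 : (1 : ℝ) / (s.1 : ℝ) ^ 2 ≤ 1 / (xi : ℝ) ^ 2 / 4 ^ j := heps
    rw [div_div, div_le_div_iff₀ (by positivity) (by positivity)] at h4
    have h5 : ((2 : ℝ) ^ j) ^ 2 ≤ (s.1 : ℝ) ^ 2 := by
      have h6 : ((2 : ℝ) ^ j) ^ 2 = 4 ^ j := by rw [← pow_mul, mul_comm, pow_mul]; norm_num
      rw [h6]
      nlinarith [pow_pos (show (0 : ℝ) < 4 by norm_num) j,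
        mul_le_mul hxi1' hxi1' (by norm_num) (by positivity)]
    exact (pow_le_pow_iff_left₀ (by positivity) hspos.le (by norm_num)).1 h5
  have hyj : 0 < y1 / 2 ^ j := by positivity
  refine hG (Kn k (y1 / 2 ^ j) * Mn p (y1 / 2 ^ j) * s.1) (Kn k (y1 / 2 ^ j) * Mn p (y1 / 2 ^ j))
    s.1 (y1 / 2 ^ j) a' ?_ ?_ rfl ?_ ?_ hQs
  · have : (XG : ℝ) ≤ (s.1 : ℝ) := h3.trans hsj
    exact_mod_cast this
  · have h7 : (XG : ℝ) ≤ (Kn k (y1 / 2 ^ j) : ℝ) := by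
      rw [div_le_iff₀ hk] at h2
      have := le_Kn k (y1 / 2 ^ j)
      linarith
    have h8 : XG ≤ Kn k (y1 / 2 ^ j) := by exact_mod_cast h7
    have h9 : 1 ≤ Mn p (y1 / 2 ^ j) := le_trans one_le_two (two_le_Mn p _)
    exact h8.trans (Nat.le_mul_of_pos_right _ h9)
  · exact h1.le
  · linarith

end Vale.Agent.P159.TM.Frame
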