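import Vale.Agent.P159.TM.Frame.Fin
import Vale.Agent.P159.TM.H694.Bind

/-!
FRAME (helper367): the literal one-scale predicate `QL` (764's `Hyp` with 41's kernel `G`), its
monotonicity, continuity (694) and incompatibility with `b < bCrit` (694); T1 from the remaining
four inputs.
-/

open Real Filter Topology

namespace Vale.Agent.P159.TM.Frame

/-- the literal one-scale predicate -/
def QL (C2 W b : ℝ) (N xi : ℕ) (y a : ℝ) : Prop :=
  ∃ h : NeZero N, @H764.Hyp N h C2 W (xi : ℝ) (@H41.G b N h (xi : ℝ)) y a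

theorem monoQL : MonoQ QL := by
  rintro C2 C2' W b N xi y a y' a' hC hCC hy ha ⟨h, hQ⟩
  exact ⟨h, hQ.mono hC.le hCC (Nat.cast_nonneg _) hy ha⟩

theorem contQL : ContQ QL := by
  rintro C2 C2' W b0 hC hCC hb0 N xi y a y' a' hxi _ hy ha ⟨h, hQ⟩
  have hx : (0 : ℝ) < xi := by exact_mod_cast hxi
  have h1 := H694.contHyp hb0 hx hC.le hCC hy ha.le hQ
  rw [Metric.eventually_nhds_iff] at h1
  obtain ⟨η, hη, h1⟩ := h1
  exact ⟨η, hη, fun b hb => ⟨h, h1 (by rwa [Real.dist_eq])⟩⟩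

theorem glueQL : GlueQ QL := by
  intro C2 W b hb hbc A
  obtain ⟨X, hX⟩ := H694.glue hb hbc A
  refine ⟨max X 1, ?_⟩
  rintro N n xi y a hxi hn rfl hy ha ⟨h, hQ⟩
  refine hX xi (n * xi) ((le_max_left _ _).trans hxi)
    (Nat.mul_le_mul_right xi ((le_max_left _ _).trans hn)) y a (hy.trans ?_) ha hQ.qu
  rw [div_le_div_iff₀ (by positivity) two_pos]
  have : (1 : ℝ) ≤ ((max X 1 : ℕ) : ℝ) := by exact_mod_cast le_max_right X 1
  linarith

/-- T1 from the literal inputs -/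
theorem helicity_lit (hI : InitQ QL)
    (hT0 : ∀ b1 b2 : ℝ, 0 < b1 → b1 ≤ b2 → Trans0Q QL b1 b2 (π / 2))
    (hT : ∀ b1 b2 : ℝ, 0 < b1 → b1 ≤ b2 → TransQ QL b1 b2 (π / 2))
    (hS : ∀ b1 b2 δ : ℝ, 0 < b1 → b1 ≤ b2 → 0 < δ → StepQ QL b1 b2 δ) :
    helicity bCrit = 2 / π :=
  helicity_eq monoQL hI contQL hT0 hT hS glueQL

end Vale.Agent.P159.TM.Frame
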