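import Vale.Agent.P159.TM.H859.Rec

/-!
FRAME (helper367): 859's `rec_main` with the drift `C (M √y + 1 / log(1/y)²)`.
-/

open Real Filter Topology Finset

namespace Vale.Agent.P159.TM.Frame

open Vale.Agent.P159.TM.H859

/-- telescoping bound -/
theorem sum_inv_sq {L l : ℝ} (hl : 0 < l) (hL : l < L) (n : ℕ) :
    ∑ j ∈ range n, 1 / (L + j * l) ^ 2 ≤ (1 / l) * (1 / (L - l) - 1 / (L - l + n * l)) := by
  induction n with
  | zero => simp
  | succ n ih =>
    rw [Finset.sum_range_succ]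
    have h0 : 0 < L - l := by linarith
    have hn : (0 : ℝ) ≤ n * l := by positivity
    have h1 : 0 < L - l + n * l := by linarith
    have h2 : 0 < L + n * l := by linarith
    have h3 : 1 / (L + n * l) ^ 2 ≤ (1 / l) * (1 / (L - l + n * l) - 1 / (L + n * l)) := by
      have e : ∀ A : ℝ, 0 < A → (1 / l) * (1 / A - 1 / (A + l)) = 1 / (A * (A + l)) := by
        intro A hA
        field_simp
        ring
      have e' := e _ h1
      rw [show L - l + n * l + l = L + n * l by ring] at e'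
      rw [e']
      refine one_div_le_one_div_of_le (by positivity) ?_
      nlinarith
    have e2 : L - l + ((n + 1 : ℕ) : ℝ) * l = L + n * l := by push_cast; ring
    rw [e2]
    have e3 : (1 / l) * (1 / (L - l) - 1 / (L + n * l)) =
        (1 / l) * (1 / (L - l) - 1 / (L - l + n * l)) +
          (1 / l) * (1 / (L - l + n * l) - 1 / (L + n * l)) := by ring
    rw [e3]
    exact add_le_add ih h3

/-- the total logarithmic drift is small -/
theorem log_drift (C : ℝ) {d : ℝ} (hC : 0 ≤ C) (hd : 0 < d) : ∃ y0 : ℝ, 0 < y0 ∧ y0 < 1 ∧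
    ∀ y : ℝ, 0 < y → y ≤ y0 → ∀ n : ℕ,
      ∑ j ∈ range n, C * (1 / Real.log (1 / (y / 2 ^ j)) ^ 2) ≤ d := by
  have hl : 0 < Real.log 2 := Real.log_pos one_lt_two
  set R : ℝ := (C + 1) / (Real.log 2 * d) with hR
  have hRp : 0 < R := by positivity
  refine ⟨exp (-(Real.log 2 + R + 1)), exp_pos _, ?_, ?_⟩
  · rw [exp_lt_one_iff]
    linarith
  · intro y hy hy0 n
    set L : ℝ := Real.log (1 / y) with hL
    have hLb : Real.log 2 + R + 1 ≤ L := by
      rw [hL, one_div, Real.log_inv]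
      have := Real.log_le_log hy hy0
      rw [Real.log_exp] at this
      linarith
    have e : ∀ j : ℕ, Real.log (1 / (y / 2 ^ j)) = L + j * Real.log 2 := by
      intro j
      rw [one_div_div, Real.log_div (by positivity) hy.ne', Real.log_pow, hL, one_div,
        Real.log_inv]
      ring
    have h1 := sum_inv_sq hl (show Real.log 2 < L by linarith) n
    have h2 : ∑ j ∈ range n, C * (1 / Real.log (1 / (y / 2 ^ j)) ^ 2) =
        C * ∑ j ∈ range n, 1 / (L + j * Real.log 2) ^ 2 := by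
      rw [Finset.mul_sum]
      refine Finset.sum_congr rfl fun j _ => ?_
      rw [e]
    rw [h2]
    have h3 : 0 < L - Real.log 2 := by linarith
    have h4 : (1 / Real.log 2) * (1 / (L - Real.log 2) - 1 / (L - Real.log 2 + n * Real.log 2)) ≤
        (1 / Real.log 2) * (1 / R) := by
      refine mul_le_mul_of_nonneg_left ?_ (by positivity)
      have h5 : 0 ≤ 1 / (L - Real.log 2 + n * Real.log 2) := by
        have : (0 : ℝ) ≤ n * Real.log 2 := by positivity
        positivity
      have h6 : 1 / (L - Real.log 2) ≤ 1 / R := one_div_le_one_div_of_le hRp (by linarith)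
      linarith
    have h7 : C * ((1 / Real.log 2) * (1 / R)) ≤ d := by
      rw [hR]
      have : C * ((1 / Real.log 2) * (1 / ((C + 1) / (Real.log 2 * d)))) = C / (C + 1) * d := by
        field_simp
      rw [this]
      have h8 : C / (C + 1) ≤ 1 := by
        rw [div_le_one (by positivity)]
        linarith
      nlinarith
    exact (mul_le_mul_of_nonneg_left (h1.trans h4) hC).trans h7

/-- **Abstract iteration with logarithmic drift.** -/
theorem rec_main2 (C : ℝ) (p : ℕ) {d : ℝ} (hC : 0 ≤ C) (hd : 0 < d) : ∃ y0 : ℝ, 0 < y0 ∧ y0 < 1 ∧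
    ∀ {σ : Type*} (eps : σ → ℝ) (Good : σ → ℝ → ℝ → Prop) (ys amax : ℝ),
      (∀ s, 0 < eps s) →
      (∀ s y a, Good s y a → 0 < y → y ≤ ys → a ≤ amax →
        ∃ s', eps s' = eps s / (Mn p y : ℝ) ^ 2 ∧
          ∃ a', a' ≤ a + C * ((Mn p y : ℝ) * √y + 1 / Real.log (1 / y) ^ 2) ∧
          Good s' (y / 2) a') →
      ∀ s y a, Good s y a → 0 < y → y ≤ ys → y ≤ y0 → a ≤ amax - d →
        ∀ j : ℕ, ∃ s' a', Good s' (y / 2 ^ j) a' ∧ a' ≤ a + d / 2 ∧ a' ≤ amax - d / 2 ∧
          eps s' ≤ eps s / 4 ^ j := by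
  obtain ⟨y1, hy1, hy11, hsum1⟩ := drift_sum C p (show 0 < d / 4 by positivity)
  obtain ⟨y2, hy2, hy21, hsum2⟩ := log_drift C hC (show 0 < d / 4 by positivity)
  refine ⟨min y1 y2, lt_min hy1 hy2, (min_le_left _ _).trans_lt hy11, ?_⟩
  intro σ eps Good ys amax heps step s y a hG hy hys hyy0 ha j
  have hsum : ∀ n : ℕ, ∑ i ∈ range n, C * ((Mn p (y / 2 ^ i) : ℝ) * √(y / 2 ^ i) +
      1 / Real.log (1 / (y / 2 ^ i)) ^ 2) ≤ d / 2 := by
    intro n
    have h1 := hsum1 y hy (hyy0.trans (min_le_left _ _)) n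
    have h2 := hsum2 y hy (hyy0.trans (min_le_right _ _)) n
    have e : ∑ i ∈ range n, C * ((Mn p (y / 2 ^ i) : ℝ) * √(y / 2 ^ i) +
        1 / Real.log (1 / (y / 2 ^ i)) ^ 2) =
        ∑ i ∈ range n, C * (Mn p (y / 2 ^ i) : ℝ) * √(y / 2 ^ i) +
        ∑ i ∈ range n, C * (1 / Real.log (1 / (y / 2 ^ i)) ^ 2) := by
      rw [← Finset.sum_add_distrib]
      refine Finset.sum_congr rfl fun i _ => ?_
      ring
    rw [e]
    linarith
  have key : ∀ j : ℕ, ∃ s' a', Good s' (y / 2 ^ j) a' ∧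
      a' ≤ a + ∑ i ∈ range j, C * ((Mn p (y / 2 ^ i) : ℝ) * √(y / 2 ^ i) +
        1 / Real.log (1 / (y / 2 ^ i)) ^ 2) ∧
      eps s' ≤ eps s / 4 ^ j := by
    intro j
    induction j with
    | zero => exact ⟨s, a, by simpa using hG, by simp, by simp⟩
    | succ j ih =>
      obtain ⟨s', a', hG', ha', he'⟩ := ih
      have hyj : 0 < y / 2 ^ j := by positivity
      have hyj1 : y / 2 ^ j ≤ y := div_le_self hy.le (one_le_pow₀ (by norm_num))
      have haj : a' ≤ amax := by
        have := hsum j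
        linarith
      obtain ⟨s'', he'', a'', ha'', hG''⟩ := step s' _ a' hG' hyj (hyj1.trans hys) haj
      refine ⟨s'', a'', ?_, ?_, ?_⟩
      · have : y / 2 ^ (j + 1) = y / 2 ^ j / 2 := by rw [pow_succ]; field_simp
        rw [this]; exact hG''
      · rw [Finset.sum_range_succ]; linarith
      · rw [he'']
        have hM : (4 : ℝ) ≤ (Mn p (y / 2 ^ j) : ℝ) ^ 2 := by
          have : (2 : ℝ) ≤ (Mn p (y / 2 ^ j) : ℝ) := by exact_mod_cast two_le_Mn p _
          nlinarith
        have h4 : (0 : ℝ) < 4 ^ j := by positivity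
        calc eps s' / (Mn p (y / 2 ^ j) : ℝ) ^ 2 ≤ eps s' / 4 :=
              div_le_div_of_nonneg_left (heps s').le (by norm_num) hM
          _ ≤ (eps s / 4 ^ j) / 4 := by linarith
          _ = eps s / 4 ^ (j + 1) := by rw [pow_succ]; field_simp
  obtain ⟨s', a', hG', ha', he'⟩ := key j
  have := hsum j
  exact ⟨s', a', hG', by linarith, by linarith, he'⟩

end Vale.Agent.P159.TM.Frame
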