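import Vale.Agent.P159.TM.H265.TransFin
import Vale.Agent.P159.TM.H41.IFin
import Vale.Agent.P159.TM.H634.B1Fin
import Vale.Agent.P159.TM.H764.StepF

/-!
FRAME (helper367): the root. T1 from the circuits `Spec.ThmA6` only.
-/

open Real

namespace Vale.Agent.P159.TM.Frame

/-- T1 from `ThmA6` -/
theorem root (hA6 : ∀ b1 b2 : ℝ, 0 < b1 → b1 ≤ b2 → Spec.ThmA6 b1 b2 (π / 2)) :
    helicity bCrit = 2 / π :=
  H41.helicity_of (fun _ _ h1 h2 => H265.trans0Q_pi _ _ h1 h2)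
    (fun _ _ h1 h2 => H265.transQ_pi _ _ h1 h2)
    (fun b1 b2 _ h1 h2 hδ => H764.stepQ h1 hδ (H634.thmB_of_A6 h1 (hA6 b1 b2 h1 h2)))

end Vale.Agent.P159.TM.Frame
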