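import Vale.Agent.P159.TM.Frame.Root
import Vale.Agent.P159.TM.Frame.ArmT
import Vale.Agent.P159.TM.H352.Mass

/-!
FRAME (helper367): T1, without hypothesis.
-/

open Real

namespace Vale.Agent.P159.TM.Frame

/-- the circuits A6 -/
theorem thmA6 {b1 b2 a : ℝ} (hb1 : 0 < b1) : Spec.ThmA6 b1 b2 a :=
  H352.a6_of hb1 (H285.circ_arm hb1 (armTor hb1))

/-- **T1**: the helicity modulus of the cosine XY model at its critical point is `2 / π` -/
theorem T1 : helicity bCrit = 2 / π := root fun _ _ h1 _ => thmA6 h1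

end Vale.Agent.P159.TM.Frame
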