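import Vale.Agent.P159.TM.Frame.Abs
import Vale.Agent.P159.TM.Frame.Rec2

/-!
FRAME (helper367): `InitQ`, `ContQ`, `GlueQ`, `TransQ`, `StepQ` imply `helicity bCrit = 2 / π`.
-/

open Real Filter Topology

namespace Vale.Agent.P159.TM.Frame

open Vale.Agent.P159.TM.H859
open Vale.Agent.P159.TM.SpecC (Kn)

theorem tendsto_log_inv : Tendsto (fun y : ℝ => Real.log (1 / y)) (𝓝[>] 0) atTop := by
  have h : Tendsto (fun y : ℝ => 1 / y) (𝓝[>] 0) atTop := by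
    simpa [one_div] using tendsto_inv_nhdsGT_zero (𝕜 := ℝ)
  exact Real.tendsto_log_atTop.comp h

theorem tendsto_y_log : Tendsto (fun y : ℝ => y * Real.log (1 / y)) (𝓝[>] 0) (𝓝 0) := by
  have h := tendsto_log_mul_rpow_nhdsGT_zero (r := 1) one_pos
  have h2 : Tendsto (fun y : ℝ => -(Real.log y * y ^ (1 : ℝ))) (𝓝[>] 0) (𝓝 (-0)) := h.neg
  rw [neg_zero] at h2
  refine h2.congr fun y => ?_
  rw [Real.rpow_one, one_div, Real.log_inv]
  ring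

/-- threshold from an eventual statement at `0+` -/
theorem thr {P : ℝ → Prop} (h : ∀ᶠ y in 𝓝[>] (0 : ℝ), P y) :
    ∃ t : ℝ, 0 < t ∧ ∀ y : ℝ, 0 < y → y ≤ t → P y := by
  rw [eventually_nhdsWithin_iff, Metric.eventually_nhds_iff] at h
  obtain ⟨e, he, h⟩ := h
  refine ⟨e / 2, by positivity, fun y hy hy2 => h ?_ hy⟩
  rw [Real.dist_eq, sub_zero, abs_of_pos hy]
  linarith

/-- smallness conditions at small activity -/
theorem small (k : ℕ) (c C D X : ℝ) (p : ℕ) (hk1 : 1 ≤ k) (hc : 0 < c) (hD : 0 < D)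
    (hck : 2 ≤ c * k) (hC : 0 ≤ C) :
    ∃ t : ℝ, 0 < t ∧ t ≤ 1 ∧ ∀ y : ℝ, 0 < y → y ≤ t →
      X ≤ (Kn k y : ℝ) ∧ (Kn k y : ℝ) * y ≤ c ∧ C * exp (-(c * (Kn k y : ℝ))) ≤ y / 4 ∧
      C * ((Mn p y : ℝ) * √y + 1 / Real.log (1 / y) ^ 2) ≤ D ∧ (Kn k y : ℝ) ≤ 1 / y ∧
      (Mn p y : ℝ) ≤ 1 / y ∧ (Kn k y : ℝ) * √y ≤ 1 ∧ (1 / y) ^ 2 ≤ exp (c * (Kn k y : ℝ)) ∧
      1 ≤ Real.log (1 / y) := by
  have hk : (0 : ℝ) < k := by exact_mod_cast hk1
  have e6 : ∀ᶠ y in 𝓝[>] (0 : ℝ), max 1 (2 * (C + 1) / D + 1) ≤ Real.log (1 / y) :=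
    tendsto_log_inv.eventually_ge_atTop _
  have e1 : ∀ᶠ y in 𝓝[>] (0 : ℝ), X / k ≤ Real.log (1 / y) :=
    tendsto_log_inv.eventually_ge_atTop _
  have e2 : ∀ᶠ y in 𝓝[>] (0 : ℝ), (k : ℝ) * (y * Real.log (1 / y)) + 2 * y < min c 1 := by
    have h1 : Tendsto (fun y : ℝ => (k : ℝ) * (y * Real.log (1 / y)) + 2 * y) (𝓝[>] 0)
        (𝓝 ((k : ℝ) * 0 + 2 * 0)) :=
      (tendsto_y_log.const_mul (k : ℝ)).add
        ((tendsto_nhdsWithin_of_tendsto_nhds tendsto_id).const_mul 2)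
    simp only [mul_zero, add_zero] at h1
    exact h1.eventually_lt_const (lt_min hc one_pos)
  obtain ⟨t1, ht1, -, hMs⟩ := Mn_sqrt_le_one p
  have e3 : ∀ᶠ y in 𝓝[>] (0 : ℝ), y < 1 / (4 * (C + 1)) :=
    (tendsto_nhdsWithin_of_tendsto_nhds tendsto_id).eventually_lt_const (by positivity)
  obtain ⟨K, hK, hKM⟩ := Mn_sqrt_le p
  have e4 : ∀ᶠ y in 𝓝[>] (0 : ℝ), C * (K * y ^ (1 / 4 : ℝ)) < D / 2 := by
    have h1 : Tendsto (fun y : ℝ => y ^ (1 / 4 : ℝ)) (𝓝[>] 0) (𝓝 0) := by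
      have := (Real.continuousAt_rpow_const 0 (1 / 4 : ℝ) (Or.inr (by norm_num))).tendsto
      rw [Real.zero_rpow (by norm_num)] at this
      exact tendsto_nhdsWithin_of_tendsto_nhds this
    have h2 : Tendsto (fun y : ℝ => C * (K * y ^ (1 / 4 : ℝ))) (𝓝[>] 0) (𝓝 (C * (K * 0))) :=
      (h1.const_mul K).const_mul C
    simp only [mul_zero] at h2
    exact h2.eventually_lt_const (by positivity)
  have e5 : ∀ᶠ y in 𝓝[>] (0 : ℝ), (k : ℝ) * (4 * y ^ (1 / 4 : ℝ)) + 2 * √y < 1 := by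
    have h1 : Tendsto (fun y : ℝ => y ^ (1 / 4 : ℝ)) (𝓝[>] 0) (𝓝 0) := by
      have := (Real.continuousAt_rpow_const 0 (1 / 4 : ℝ) (Or.inr (by norm_num))).tendsto
      rw [Real.zero_rpow (by norm_num)] at this
      exact tendsto_nhdsWithin_of_tendsto_nhds this
    have h2 : Tendsto (fun y : ℝ => √y) (𝓝[>] 0) (𝓝 0) := by
      have := Real.continuous_sqrt.tendsto 0
      rw [Real.sqrt_zero] at this
      exact tendsto_nhdsWithin_of_tendsto_nhds this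
    have h3 : Tendsto (fun y : ℝ => (k : ℝ) * (4 * y ^ (1 / 4 : ℝ)) + 2 * √y) (𝓝[>] 0)
        (𝓝 ((k : ℝ) * (4 * 0) + 2 * 0)) :=
      ((h1.const_mul 4).const_mul (k : ℝ)).add (h2.const_mul 2)
    simp only [mul_zero, add_zero] at h3
    exact h3.eventually_lt_const one_pos
  obtain ⟨t, ht, h⟩ := thr (e1.and (e2.and (e3.and (e4.and (e5.and e6)))))
  refine ⟨min (min t t1) 1, lt_min (lt_min ht ht1) one_pos, min_le_right _ _, fun y hy hyt => ?_⟩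
  have hy1 : y ≤ 1 := hyt.trans (min_le_right _ _)
  have hyt1 : y ≤ t1 := hyt.trans ((min_le_left _ _).trans (min_le_right _ _))
  obtain ⟨h1, h2, h3, h4, h5', h6'⟩ := h y hy (hyt.trans ((min_le_left _ _).trans (min_le_left _ _)))
  have hkn := le_Kn k y
  have hkn2 := Kn_le (k := k) hy hy1
  have hx : X ≤ (Kn k y : ℝ) := by
    rw [div_le_iff₀ hk] at h1
    linarith
  have hKy : (Kn k y : ℝ) * y ≤ min c 1 := by
    calc (Kn k y : ℝ) * y ≤ (k * Real.log (1 / y) + 2) * y :=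
          mul_le_mul_of_nonneg_right hkn2 hy.le
      _ = k * (y * Real.log (1 / y)) + 2 * y := by ring
      _ ≤ min c 1 := h2.le
  have hlog : 0 ≤ Real.log (1 / y) := Real.log_nonneg (by rw [le_div_iff₀ hy]; linarith)
  have hexp : 2 * Real.log (1 / y) ≤ c * (Kn k y : ℝ) := by
    have h7 : c * (k * Real.log (1 / y)) ≤ c * (Kn k y : ℝ) :=
      mul_le_mul_of_nonneg_left hkn hc.le
    have h8 : 2 * Real.log (1 / y) ≤ c * k * Real.log (1 / y) :=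
      mul_le_mul_of_nonneg_right hck hlog
    linarith
  refine ⟨hx, hKy.trans (min_le_left _ _), ?_, ?_, ?_, ?_, ?_, ?_, (le_max_left _ _).trans h6'⟩
  · have h5 : exp (-(c * (Kn k y : ℝ))) ≤ y ^ 2 := by
      have : -(c * (Kn k y : ℝ)) ≤ 2 * Real.log y := by
        have h6 : Real.log (1 / y) = -Real.log y := by rw [one_div, Real.log_inv]
        rw [h6] at hexp
        linarith
      calc exp (-(c * (Kn k y : ℝ))) ≤ exp (2 * Real.log y) := exp_le_exp.2 this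
        _ = y ^ 2 := by rw [two_mul, exp_add, exp_log hy]; ring
    have h9 : y * (4 * (C + 1)) ≤ 1 := by
      rw [lt_div_iff₀ (by positivity)] at h3
      exact h3.le
    have h10 : C * y ^ 2 ≤ y / 4 := by nlinarith
    exact (mul_le_mul_of_nonneg_left h5 hC).trans h10
  · have g1 : C * ((Mn p y : ℝ) * √y) ≤ D / 2 :=
      (mul_le_mul_of_nonneg_left (hKM y hy hy1) hC).trans h4.le
    have g2 : C * (1 / Real.log (1 / y) ^ 2) ≤ D / 2 := by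
      have hL : 2 * (C + 1) / D + 1 ≤ Real.log (1 / y) := (le_max_right _ _).trans h6'
      have hLp : 1 ≤ Real.log (1 / y) := (le_max_left _ _).trans h6'
      have hL2 : 2 * (C + 1) / D ≤ Real.log (1 / y) ^ 2 := by nlinarith
      rw [div_le_iff₀ hD] at hL2
      rw [mul_one_div, div_le_iff₀ (by positivity)]
      linarith
    rw [mul_add]
    linarith
  · rw [le_div_iff₀ hy]
    exact hKy.trans (min_le_right _ _)
  · rw [le_div_iff₀ hy]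
    have h11 : y ≤ √y := by
      rw [Real.le_sqrt hy.le hy.le]
      nlinarith
    exact (mul_le_mul_of_nonneg_left h11 (Nat.cast_nonneg _)).trans (hMs y hy hyt1)
  · have h12 : Real.log (1 / y) ≤ (1 / y) ^ (1 / 4 : ℝ) / (1 / 4) :=
      Real.log_le_rpow_div (by positivity) (by norm_num)
    have h13 : (1 / y) ^ (1 / 4 : ℝ) * √y = y ^ (1 / 4 : ℝ) := by
      rw [one_div, Real.inv_rpow hy.le, ← Real.rpow_neg hy.le, Real.sqrt_eq_rpow,
        ← Real.rpow_add hy]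
      norm_num
    have hsq : 0 ≤ √y := Real.sqrt_nonneg y
    calc (Kn k y : ℝ) * √y ≤ (k * Real.log (1 / y) + 2) * √y :=
          mul_le_mul_of_nonneg_right hkn2 hsq
      _ ≤ (k * ((1 / y) ^ (1 / 4 : ℝ) / (1 / 4)) + 2) * √y := by
          refine mul_le_mul_of_nonneg_right ?_ hsq
          linarith [mul_le_mul_of_nonneg_left h12 hk.le]
      _ = k * (4 * ((1 / y) ^ (1 / 4 : ℝ) * √y)) + 2 * √y := by ring
      _ = k * (4 * y ^ (1 / 4 : ℝ)) + 2 * √y := by rw [h13]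
      _ ≤ 1 := h5'.le
  · calc (1 / y) ^ 2 = exp (2 * Real.log (1 / y)) := by
          rw [two_mul, exp_add, exp_log (by positivity)]; ring
      _ ≤ exp (c * (Kn k y : ℝ)) := exp_le_exp.2 hexp



variable {Q : ℝ → ℝ → ℝ → ℕ → ℕ → ℝ → ℝ → Prop}

/-- a state at inverse temperature `b`: the scale `ξ` -/
def St (X : ℕ) : Type := {xi : ℕ // X ≤ xi ∧ 1 ≤ xi}

/-- the mass of a state -/
noncomputable def epsS {X : ℕ} (s : St X) : ℝ := 1 / ((s.1 : ℝ)) ^ 2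

theorem epsS_pos {X : ℕ} (s : St X) : 0 < epsS s := by
  have h : (0 : ℝ) < (s.1 : ℝ) := by exact_mod_cast s.2.2
  unfold epsS
  positivity

/-- smallness conditions as a predicate -/
def Sm (k : ℕ) (c C D X : ℝ) (p : ℕ) (t : ℝ) : Prop := ∀ y : ℝ, 0 < y → y ≤ t →
      X ≤ (Kn k y : ℝ) ∧ (Kn k y : ℝ) * y ≤ c ∧ C * exp (-(c * (Kn k y : ℝ))) ≤ y / 4 ∧
      C * ((Mn p y : ℝ) * √y + 1 / Real.log (1 / y) ^ 2) ≤ D ∧ (Kn k y : ℝ) ≤ 1 / y ∧
      (Mn p y : ℝ) ≤ 1 / y ∧ (Kn k y : ℝ) * √y ≤ 1 ∧ (1 / y) ^ 2 ≤ exp (c * (Kn k y : ℝ)) ∧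
      1 ≤ Real.log (1 / y)

/-- comparison of the box size with the logarithm -/
theorem inv_Kn_sq {k : ℕ} {y : ℝ} (hk1 : 1 ≤ k) (hL : 1 ≤ Real.log (1 / y)) :
    1 / (Kn k y : ℝ) ^ 2 ≤ 1 / Real.log (1 / y) ^ 2 := by
  refine one_div_le_one_div_of_le (by positivity) ?_
  refine pow_le_pow_left₀ (by linarith) ?_ 2
  have h1 := le_Kn k y
  have h2 : (1 : ℝ) ≤ k := by exact_mod_cast hk1
  nlinarith

theorem step1 (hM : MonoQ Q) {W b δ c CT CS t yT yS : ℝ} {k p XT XS X : ℕ} (hδ : 0 < δ)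
    (hk1 : 1 ≤ k) (hCT : 0 ≤ CT) (hCS : 0 ≤ CS)
    (hT : ∀ (N N' n n' K xi : ℕ) (y a : ℝ), XT ≤ xi → XT ≤ K → K ≤ n →
      K ≤ n' → N = n * xi → N' = n' * xi → 0 < y → y ≤ yT → K * y ≤ c →
      CT * exp (-(c * K)) ≤ y → (n : ℝ) ≤ (1 / y) ^ 4 → (n : ℝ) ≤ exp (c * K) → (n' : ℝ) ≤ (1 / y) ^ 4 → a ≤ π / 2 → Q 7 W b N xi y a →
      Q 10 W b N' xi (y + CT * exp (-(c * K)))
        (a + CT * (√(y + CT * exp (-(c * K))) + 1 / (K : ℝ) ^ 2)))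
    (hS : ∀ (N xi : ℕ) (y a : ℝ), XS ≤ xi → 0 < y → y ≤ yS →
      a ≤ π / 2 - δ → N = Kn k y * Mn p y * xi → Q 10 W b N xi y a →
      Q 5 W b N (Mn p y * xi) (y / 4)
        (a + CS * ((Mn p y : ℝ) * √y + 1 / Real.log (1 / y) ^ 2)))
    (hsm : Sm k c (CT + CS + 1) (δ / 2) XT p t) (s : St X) (y a : ℝ) (hXT : XT ≤ s.1)
    (hXS : XS ≤ s.1)
    (hQ : Q 10 W b (Kn k y * Mn p y * s.1) s.1 y a) (hy : 0 < y) (hyt : y ≤ t) (hyS' : y ≤ yS)
    (hyT' : y ≤ yT) (hy16 : y ≤ 1 / 16) (ha : a ≤ π / 2 - δ) :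
    ∃ s' : St X, epsS s' = epsS s / (Mn p y : ℝ) ^ 2 ∧ ∃ a' : ℝ,
      a' ≤ a + (CT + CS) * ((Mn p y : ℝ) * √y + 1 / Real.log (1 / y) ^ 2) ∧
      Q 10 W b (Kn k (y / 2) * Mn p (y / 2) * s'.1) s'.1 (y / 2) a' := by
  obtain ⟨g1, g2, g3, g4, g7, g8, g11, g12, g13⟩ := hsm y hy hyt
  obtain ⟨-, -, -, -, g9, g10, -, -, -⟩ := hsm (y / 2) (by positivity) (by linarith)
  have hM2 : 2 ≤ Mn p y := two_le_Mn p y
  have hM1 : (1 : ℝ) ≤ (Mn p y : ℝ) := by exact_mod_cast le_trans one_le_two hM2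
  have hsq : 0 ≤ √y := Real.sqrt_nonneg y
  set D : ℝ := (Mn p y : ℝ) * √y + 1 / Real.log (1 / y) ^ 2 with hD
  have hD0 : 0 ≤ D := by positivity
  have hstep := hS _ s.1 y a hXS hy hyS' ha rfl hQ
  have hMs : s.1 ≤ Mn p y * s.1 := Nat.le_mul_of_pos_left _ (by omega)
  have g5 : CS * D ≤ δ := by
    have h1 : CS * D ≤ (CT + CS + 1) * D := mul_le_mul_of_nonneg_right (by linarith) hD0
    linarith
  have g6 : CT * exp (-(c * (Kn k y : ℝ))) ≤ y / 4 := by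
    refine le_trans (mul_le_mul_of_nonneg_right ?_ (exp_pos _).le) g3
    linarith
  have hK1 : Kn k y ≤ Kn k (y / 2) := Kn_mono (by positivity) (by linarith)
  have hM1' : 1 ≤ Mn p (y / 2) := le_trans one_le_two (two_le_Mn p _)
  have hu4 : 4 ≤ 1 / (y / 4) := by rw [le_div_iff₀ (by positivity)]; linarith
  have hu16 : 16 ≤ 1 / y := by rw [le_div_iff₀ hy]; linarith
  have hN1 : (Kn k y : ℝ) ≤ (1 / (y / 4)) ^ 4 := by
    have h2 : (1 : ℝ) / y ≤ 1 / (y / 4) := one_div_le_one_div_of_le (by positivity) (by linarith)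
    have h3 : 1 / (y / 4) ≤ (1 / (y / 4)) ^ 4 := le_self_pow₀ (by linarith) (by norm_num)
    linarith
  have hN3 : (Kn k y : ℝ) ≤ exp (c * (Kn k y : ℝ)) := by
    have h3 : 1 / y ≤ (1 / y) ^ 2 := le_self_pow₀ (by linarith) (by norm_num)
    linarith
  have hN2 : ((Kn k (y / 2) * Mn p (y / 2) : ℕ) : ℝ) ≤ (1 / (y / 4)) ^ 4 := by
    rw [Nat.cast_mul]
    have h2 : (1 : ℝ) / (y / 2) ≤ 1 / (y / 4) :=
      one_div_le_one_div_of_le (by positivity) (by linarith)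
    have h4 : (Kn k (y / 2) : ℝ) * (Mn p (y / 2) : ℝ) ≤ (1 / (y / 4)) * (1 / (y / 4)) :=
      mul_le_mul (g9.trans h2) (g10.trans h2) (Nat.cast_nonneg _) (by positivity)
    have h5 : (1 / (y / 4)) * (1 / (y / 4)) ≤ (1 / (y / 4)) ^ 4 := by
      rw [← pow_two]
      exact pow_le_pow_right₀ (by linarith) (by norm_num)
    linarith
  have hstep7 : Q 7 W b (Kn k y * Mn p y * s.1) (Mn p y * s.1) (y / 4) (a + CS * D) :=
    hM 5 7 W b _ _ _ _ _ _ (by norm_num) (by norm_num) le_rfl le_rfl hstep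
  have hKy : (Kn k y : ℝ) * (y / 4) ≤ c := by
    have : 0 ≤ (Kn k y : ℝ) * y := by positivity
    linarith
  have htr := hT _ (Kn k (y / 2) * Mn p (y / 2) * (Mn p y * s.1)) (Kn k y)
    (Kn k (y / 2) * Mn p (y / 2))
    (Kn k y) (Mn p y * s.1) (y / 4) (a + CS * D) (hXT.trans hMs)
    (by exact_mod_cast g1) le_rfl (hK1.trans (Nat.le_mul_of_pos_right _ hM1'))
    (mul_assoc _ _ _) rfl (by positivity) (by linarith) hKy g6 hN1 hN3 hN2
    (by linarith) hstep7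
  refine ⟨⟨Mn p y * s.1, s.2.1.trans hMs, s.2.2.trans hMs⟩, ?_,
    a + (CT + CS) * D, le_rfl, ?_⟩
  · unfold epsS
    push_cast
    have : (s.1 : ℝ) ≠ 0 := by
      have : (0 : ℝ) < (s.1 : ℝ) := by exact_mod_cast s.2.2
      exact this.ne'
    field_simp
  · refine hM 10 10 W b _ _ _ _ _ _ (by norm_num) le_rfl (by linarith) ?_ htr
    have h1 : √(y / 4 + CT * exp (-(c * (Kn k y : ℝ)))) ≤ √y :=
      Real.sqrt_le_sqrt (by linarith)
    have h2 : √y ≤ (Mn p y : ℝ) * √y := le_mul_of_one_le_left hsq hM1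
    have h3 := inv_Kn_sq hk1 g13
    have h4 : CT * (√(y / 4 + CT * exp (-(c * (Kn k y : ℝ)))) + 1 / (Kn k y : ℝ) ^ 2) ≤ CT * D :=
      mul_le_mul_of_nonneg_left (by rw [hD]; linarith) hCT
    have h5 : (CT + CS) * D = CT * D + CS * D := by ring
    linarith

theorem zfacts {C0 y δ : ℝ} (hC0 : 1 ≤ C0) (hδ : 0 < δ) (hy : 0 < y) (hy16 : y ≤ 1 / 16)
    (hyC : C0 * y ≤ 1) (hyδ : C0 * y ≤ δ ^ 2 / 4) :
    0 < y / (2 * C0) ∧ y / (2 * C0) ≤ y ∧ C0 * (y / (2 * C0)) = y / 2 ∧ 0 < √(y / (2 * C0)) ∧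
      √(y / (2 * C0)) ≤ 1 ∧ y / 2 ≤ √(y / (2 * C0)) ∧ C0 * √(y / (2 * C0)) ≤ δ / 2 := by
  have hC0p : 0 < C0 := by linarith
  set z : ℝ := y / (2 * C0) with hz
  have hzpos : 0 < z := by positivity
  have hzy : z ≤ y := by
    rw [hz, div_le_iff₀ (by positivity)]
    nlinarith
  have hCz : C0 * z = y / 2 := by
    rw [hz]; field_simp
  refine ⟨hzpos, hzy, hCz, Real.sqrt_pos.2 hzpos, ?_, ?_, ?_⟩
  · rw [← Real.sqrt_one]
    exact Real.sqrt_le_sqrt (by linarith)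
  · rw [Real.le_sqrt (by positivity) hzpos.le, hz, le_div_iff₀ (by positivity)]
    nlinarith
  · have h1 : (C0 * √z) ^ 2 ≤ (δ / 2) ^ 2 := by
      rw [mul_pow, Real.sq_sqrt hzpos.le]
      have : C0 ^ 2 * z = C0 * (C0 * z) := by ring
      rw [this, hCz]
      nlinarith
    exact (pow_le_pow_iff_left₀ (by positivity) (by positivity) (by norm_num)).1 h1

theorem start1 (hM : MonoQ Q) {W b δ c CT CS C0 t yT y0 : ℝ} {k p XT X0 : ℕ} (hδ : 0 < δ)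
    (hk1 : 1 ≤ k) (hCT : 0 ≤ CT) (hCS : 0 ≤ CS) (hC0 : 1 ≤ C0)
    (hT0 : ∀ (N N' n K xi : ℕ) (y a : ℝ), X0 ≤ xi → K ≤ n → N = n * xi →
      N' = K * xi → 0 < y → y ≤ y0 → 1 / √y ≤ (K : ℝ) → (K : ℝ) ≤ 2 / √y → a ≤ π / 2 →
      Q 6 W b N xi y a → Q 7 W b N' xi (C0 * y) (a + C0 * √y))
    (hT : ∀ (N N' n n' K xi : ℕ) (y a : ℝ), XT ≤ xi → XT ≤ K → K ≤ n →
      K ≤ n' → N = n * xi → N' = n' * xi → 0 < y → y ≤ yT → K * y ≤ c →
      CT * exp (-(c * K)) ≤ y → (n : ℝ) ≤ (1 / y) ^ 4 → (n : ℝ) ≤ exp (c * K) → (n' : ℝ) ≤ (1 / y) ^ 4 → a ≤ π / 2 → Q 7 W b N xi y a →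
      Q 10 W b N' xi (y + CT * exp (-(c * K)))
        (a + CT * (√(y + CT * exp (-(c * K))) + 1 / (K : ℝ) ^ 2)))
    (hsm : Sm k c (CT + CS + 1) (δ / 2) XT p t) (n xi : ℕ) (y a : ℝ) (hXT : XT ≤ xi)
    (hX0 : X0 ≤ xi) (hN : ⌈1 / √(y / (2 * C0))⌉₊ ≤ n)
    (hQ : Q 6 W b (n * xi) xi (y / (2 * C0)) a) (hy : 0 < y) (hyt : y ≤ t) (hyT' : y ≤ yT)
    (hy0' : y ≤ y0) (hy16 : y ≤ 1 / 16) (hyC : C0 * y ≤ 1) (hyδ : C0 * y ≤ δ ^ 2 / 4)
    (ha : a ≤ π / 2 - δ) :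
    Q 10 W b (Kn k y * Mn p y * xi) xi y (a + δ) := by
  have hC0p : 0 < C0 := by linarith
  obtain ⟨g1, g2, g3, g4, g7, g8, g11, g12, g13⟩ := hsm y hy hyt
  -- the input activity
  obtain ⟨hzpos, hzy, hCz, hsz, hsz1, hszy, hCsz⟩ := zfacts hC0 hδ hy hy16 hyC hyδ
  set z : ℝ := y / (2 * C0) with hz
  set K : ℕ := ⌈1 / √z⌉₊ with hKdef
  have hKlo : 1 / √z ≤ (K : ℝ) := Nat.le_ceil _
  have hKhi : (K : ℝ) ≤ 2 / √z := by
    have h1 : (K : ℝ) < 1 / √z + 1 := Nat.ceil_lt_add_one (by positivity)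
    have h2 : 1 ≤ 1 / √z := by rw [le_div_iff₀ hsz]; linarith
    have h3 : 2 / √z = 1 / √z + 1 / √z := by ring
    linarith
  have hK4 : (K : ℝ) ≤ 4 / y := by
    refine hKhi.trans ?_
    rw [div_le_div_iff₀ hsz hy]
    linarith
  have h0 := hT0 (n * xi) (K * xi) n K xi z a hX0 hN rfl rfl hzpos (hzy.trans hy0') hKlo hKhi
    (by linarith) hQ
  rw [hCz] at h0
  have hM2 : 2 ≤ Mn p y := two_le_Mn p y
  have hM1 : (1 : ℝ) ≤ (Mn p y : ℝ) := by exact_mod_cast le_trans one_le_two hM2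
  have hsq : 0 ≤ √y := Real.sqrt_nonneg y
  have hsqp : 0 < √y := Real.sqrt_pos.2 hy
  have g6 : CT * exp (-(c * (Kn k y : ℝ))) ≤ y / 4 := by
    refine le_trans (mul_le_mul_of_nonneg_right ?_ (exp_pos _).le) g3
    linarith
  have hu16 : 16 ≤ 1 / y := by rw [le_div_iff₀ hy]; linarith
  have hu4 : 4 ≤ 1 / (y / 2) := by rw [le_div_iff₀ (by positivity)]; linarith
  have hKnK : Kn k y ≤ K := by
    have h1 : (Kn k y : ℝ) ≤ 1 / √y := by rw [le_div_iff₀ hsqp]; exact g11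
    have h2 : 1 / √y ≤ 1 / √z := one_div_le_one_div_of_le hsz (Real.sqrt_le_sqrt hzy)
    exact_mod_cast (h1.trans h2).trans hKlo
  have h4y : 4 / y ≤ (1 / y) ^ 2 := by
    have : 4 / y = 4 * (1 / y) := by ring
    rw [this, pow_two]
    nlinarith
  have hN1 : (K : ℝ) ≤ (1 / (y / 2)) ^ 4 := by
    have h2 : (1 : ℝ) / y ≤ 1 / (y / 2) := one_div_le_one_div_of_le (by positivity) (by linarith)
    have h3 : (1 / y) ^ 2 ≤ (1 / (y / 2)) ^ 2 := pow_le_pow_left₀ (by positivity) h2 2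
    have h5 : (1 / (y / 2)) ^ 2 ≤ (1 / (y / 2)) ^ 4 :=
      pow_le_pow_right₀ (by linarith) (by norm_num)
    linarith
  have hN3 : (K : ℝ) ≤ exp (c * (Kn k y : ℝ)) := by linarith
  have hN2 : ((Kn k y * Mn p y : ℕ) : ℝ) ≤ (1 / (y / 2)) ^ 4 := by
    rw [Nat.cast_mul]
    have h2 : (1 : ℝ) / y ≤ 1 / (y / 2) := one_div_le_one_div_of_le (by positivity) (by linarith)
    have h4 : (Kn k y : ℝ) * (Mn p y : ℝ) ≤ (1 / (y / 2)) * (1 / (y / 2)) :=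
      mul_le_mul (g7.trans h2) (g8.trans h2) (Nat.cast_nonneg _) (by positivity)
    have h5 : (1 / (y / 2)) * (1 / (y / 2)) ≤ (1 / (y / 2)) ^ 4 := by
      rw [← pow_two]
      exact pow_le_pow_right₀ (by linarith) (by norm_num)
    linarith
  have hKy : (Kn k y : ℝ) * (y / 2) ≤ c := by
    have : 0 ≤ (Kn k y : ℝ) * y := by positivity
    linarith
  have htr := hT (K * xi) (Kn k y * Mn p y * xi) K (Kn k y * Mn p y) (Kn k y) xi (y / 2)
    (a + C0 * √z) hXT (by exact_mod_cast g1) hKnK (Nat.le_mul_of_pos_right _ (by omega)) rfl rfl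
    (by positivity) (by linarith) hKy (by linarith) hN1 hN3 hN2 (by linarith) h0
  refine hM 10 10 W b _ _ _ _ _ _ (by norm_num) le_rfl (by linarith) ?_ htr
  have h1 : √(y / 2 + CT * exp (-(c * (Kn k y : ℝ)))) ≤ √y :=
    Real.sqrt_le_sqrt (by linarith)
  have h2 : √y ≤ (Mn p y : ℝ) * √y := le_mul_of_one_le_left hsq hM1
  have h3 := inv_Kn_sq hk1 g13
  set D : ℝ := (Mn p y : ℝ) * √y + 1 / Real.log (1 / y) ^ 2 with hD
  have hD0 : 0 ≤ D := by positivity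
  have h4 : CT * (√(y / 2 + CT * exp (-(c * (Kn k y : ℝ)))) + 1 / (Kn k y : ℝ) ^ 2) ≤ CT * D :=
    mul_le_mul_of_nonneg_left (by rw [hD]; linarith) hCT
  have h5 : CT * D ≤ (CT + CS + 1) * D := mul_le_mul_of_nonneg_right (by linarith) hD0
  linarith

/-- **one full step**: RG step followed by the volume transfer, and the start. -/
theorem full_step (hM : MonoQ Q) {b1 b2 δ : ℝ} (hδ : 0 < δ)
    (hT0 : Trans0Q Q b1 b2 (π / 2)) (hT : TransQ Q b1 b2 (π / 2)) (hS : StepQ Q b1 b2 δ) :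
    ∃ W : ℝ, ∃ (k : ℕ) (C C0 ys : ℝ) (p X : ℕ), 1 ≤ k ∧ 0 ≤ C ∧ 1 ≤ C0 ∧ 0 < ys ∧
      ys ≤ 1 / 16 ∧
      (∀ b : ℝ, b1 ≤ b → b ≤ b2 → ∀ (s : St X) (y a : ℝ),
        Q 10 W b (Kn k y * Mn p y * s.1) s.1 y a → 0 < y → y ≤ ys → a ≤ π / 2 - δ →
        ∃ s' : St X, epsS s' = epsS s / (Mn p y : ℝ) ^ 2 ∧ ∃ a' : ℝ,
          a' ≤ a + C * ((Mn p y : ℝ) * √y + 1 / Real.log (1 / y) ^ 2) ∧
          Q 10 W b (Kn k (y / 2) * Mn p (y / 2) * s'.1) s'.1 (y / 2) a') ∧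
      (∀ b : ℝ, b1 ≤ b → b ≤ b2 → ∀ (n xi : ℕ) (y a : ℝ), X ≤ xi →
        ⌈1 / √(y / (2 * C0))⌉₊ ≤ n →
        Q 6 W b (n * xi) xi (y / (2 * C0)) a → 0 < y → y ≤ ys → a ≤ π / 2 - δ →
        Q 10 W b (Kn k y * Mn p y * xi) xi y (a + δ)) := by
  obtain ⟨W1, hT⟩ := hT
  obtain ⟨W2, hS⟩ := hS
  obtain ⟨W3, hT0⟩ := hT0
  set W : ℝ := max (max W1 W2) W3 with hW
  obtain ⟨c, CT, yT, XT, hc, hCT, hyT, hT⟩ :=
    hT W ((le_max_left _ _).trans (le_max_left _ _))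
  obtain ⟨k0, hS⟩ := hS W ((le_max_right _ _).trans (le_max_left _ _))
  obtain ⟨C0, y0, X0, hC0, hy0, hT0⟩ := hT0 W (le_max_right _ _)
  have hC0p : 0 < C0 := by linarith
  set k : ℕ := max (max k0 1) ⌈2 / c⌉₊ with hkdef
  have hk1 : 1 ≤ k := (le_max_right _ _).trans (le_max_left _ _)
  have hck : 2 ≤ c * k := by
    have h1 : ((⌈2 / c⌉₊ : ℕ) : ℝ) ≤ (k : ℝ) := by exact_mod_cast le_max_right _ _
    have h2 : 2 / c ≤ (k : ℝ) := (Nat.le_ceil _).trans h1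
    rw [div_le_iff₀ hc] at h2
    linarith
  obtain ⟨p, CS, yS, XS, hCS, hyS, hS⟩ := hS k ((le_max_left _ _).trans (le_max_left _ _))
  obtain ⟨t, ht, ht1, hsm⟩ := small k c (CT + CS + 1) (δ / 2) XT p hk1 hc (by positivity) hck
    (by positivity)
  obtain ⟨ys, hys, hyst, hysS, hysT, hys0, hys16, hysC, hysδ⟩ : ∃ ys : ℝ, 0 < ys ∧ ys ≤ t ∧
      ys ≤ yS ∧ ys ≤ yT ∧ ys ≤ y0 ∧ ys ≤ 1 / 16 ∧ ys ≤ 1 / C0 ∧ ys ≤ δ ^ 2 / (4 * C0) := by
    refine ⟨min (min (min t yS) (min yT y0)) (min (1 / 16) (min (1 / C0) (δ ^ 2 / (4 * C0)))),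
      ?_, ?_, ?_, ?_, ?_, ?_, ?_, ?_⟩
    · refine lt_min (lt_min (lt_min ht hyS) (lt_min hyT hy0)) (lt_min (by norm_num)
        (lt_min (by positivity) (by positivity)))
    · exact (min_le_left _ _).trans ((min_le_left _ _).trans (min_le_left _ _))
    · exact (min_le_left _ _).trans ((min_le_left _ _).trans (min_le_right _ _))
    · exact (min_le_left _ _).trans ((min_le_right _ _).trans (min_le_left _ _))
    · exact (min_le_left _ _).trans ((min_le_right _ _).trans (min_le_right _ _))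
    · exact (min_le_right _ _).trans (min_le_left _ _)
    · exact (min_le_right _ _).trans ((min_le_right _ _).trans (min_le_left _ _))
    · exact (min_le_right _ _).trans ((min_le_right _ _).trans (min_le_right _ _))
  refine ⟨W, k, CT + CS, C0, ys, p, max (max XT XS) X0, hk1, by positivity, hC0, hys, hys16,
    ?_, ?_⟩
  · intro b hb1 hb2 s y a hQ hy hyy ha
    exact step1 hM hδ hk1 hCT hCS (hT b hb1 hb2) (hS b hb1 hb2) hsm s y a
      (((le_max_left _ _).trans (le_max_left _ _)).trans s.2.1)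
      (((le_max_right _ _).trans (le_max_left _ _)).trans s.2.1) hQ hy (hyy.trans hyst)
      (hyy.trans hysS) (hyy.trans hysT) (hyy.trans hys16) ha
  · intro b hb1 hb2 n xi y a hxi hN hQ hy hyy ha
    have hyC : C0 * y ≤ 1 := by
      have := hyy.trans hysC
      rw [le_div_iff₀ hC0p] at this
      linarith
    have hyδ : C0 * y ≤ δ ^ 2 / 4 := by
      have := hyy.trans hysδ
      rw [le_div_iff₀ (by positivity)] at this
      linarith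
    exact start1 hM hδ hk1 hCT hCS hC0 (hT0 b hb1 hb2) (hT b hb1 hb2) hsm n xi y a
      (((le_max_left _ _).trans (le_max_left _ _)).trans hxi) ((le_max_right _ _).trans hxi) hN hQ
      hy (hyy.trans hyst) (hyy.trans hysT) (hyy.trans hys0) (hyy.trans hys16) hyC hyδ ha

end Vale.Agent.P159.TM.Frame
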